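import Mathlib
import Vale.Agent.P122.FI.Pl
import Vale.Agent.P076.X.Defs

/-! # P076, block X.TEL: the quartic functional of a one-dimensional Schrödinger solution

Core identity (in `ℝ≥0∞`): `∬ |c₁|² |c₂|² dy dη = s · J(s,s)`, and the symmetry `J(p,q) = J(q,p)`.
-/

open MeasureTheory Complex Set FourierTransform
open scoped ENNReal NNReal ComplexConjugate

set_option linter.all false

namespace Vale.Agent.P076.H416

open X (ex)

lemma norm_ex (θ : ℝ) : ‖ex θ‖ = 1 := by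
  unfold ex
  rw [Complex.norm_exp_ofReal_mul_I]

lemma enorm_ex (θ : ℝ) : ‖ex θ‖ₑ = 1 := by
  rw [← ofReal_norm, norm_ex, ENNReal.ofReal_one]

lemma ex_add (x y : ℝ) : ex (x + y) = ex x * ex y := by
  unfold ex
  rw [← Complex.exp_add]
  congr 1
  push_cast
  ring

lemma ex_zero : ex 0 = 1 := by simp [ex]

lemma conj_ex (x : ℝ) : conj (ex x) = ex (-x) := by
  unfold ex
  rw [← Complex.exp_conj]
  congr 1
  simp only [map_mul, Complex.conj_I, Complex.conj_ofReal, Complex.conj_ofNat]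
  push_cast
  ring

lemma continuous_ex : Continuous ex := by unfold ex; fun_prop

@[fun_prop] lemma measurable_ex : Measurable ex := continuous_ex.measurable

/-- one dimensional Plancherel with the positive sign -/
lemma planch1 (g : ℝ → ℂ) (h1 : Integrable g) (h2 : MemLp g 2) :
    ∫⁻ x : ℝ, ‖∫ ξ, g ξ * ex (ξ * x)‖ₑ ^ 2 = ∫⁻ ξ, ‖g ξ‖ₑ ^ 2 := by
  rw [← P122.FI.planch g h1 h2]
  refine lintegral_congr fun x => ?_
  congr 2
  refine integral_congr_ae (Filter.Eventually.of_forall fun ξ => ?_)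
  simp only [ex]
  congr 2
  have : (inner ℝ x ξ : ℝ) = ξ * x := by simp [mul_comm]
  rw [this]
  push_cast
  ring

lemma memLp_two_of_bdd {g : ℝ → ℂ} (hi : Integrable g) {M : ℝ} (hM : ∀ ξ, ‖g ξ‖ ≤ M) :
    MemLp g 2 volume := by
  rw [memLp_two_iff_integrable_sq_norm hi.aestronglyMeasurable]
  refine (hi.norm.const_mul M).mono' (by fun_prop) (Filter.Eventually.of_forall fun ξ => ?_)
  rw [Real.norm_eq_abs, abs_of_nonneg (by positivity), sq]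
  exact mul_le_mul_of_nonneg_right (hM ξ) (norm_nonneg _)

lemma integrable_conj {f : ℝ → ℂ} (h : Integrable f) : Integrable (fun ξ => conj (f ξ)) := by
  refine h.norm.mono' (Complex.continuous_conj.comp_aestronglyMeasurable h.1)
    (Filter.Eventually.of_forall fun ξ => ?_)
  rw [RCLike.norm_conj]

/-- the correlation `K(a) = ∫ f₁(ξ + a) conj f₂(ξ) dξ` -/
noncomputable def cor (f₁ f₂ : ℝ → ℂ) (a : ℝ) : ℂ := ∫ ξ, f₁ (ξ + a) * conj (f₂ ξ)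

lemma integrable_cor_prod {f₁ f₂ : ℝ → ℂ} (h₁ : Integrable f₁) (h₂ : Integrable f₂) :
    Integrable (fun p : ℝ × ℝ => f₁ (p.1 + p.2) * conj (f₂ p.1)) (volume.prod volume) := by
  have h := (integrable_conj h₂).mul_prod h₁
  have h' := ((measurePreserving_prod_add (volume : Measure ℝ) (volume : Measure ℝ)).integrable_comp
    h.aestronglyMeasurable).mpr h
  refine h'.congr (Filter.Eventually.of_forall fun p => ?_)
  simp only [Function.comp_apply]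
  exact mul_comm _ _

lemma integrable_cor {f₁ f₂ : ℝ → ℂ} (h₁ : Integrable f₁) (h₂ : Integrable f₂) :
    Integrable (cor f₁ f₂) := (integrable_cor_prod h₁ h₂).integral_prod_right

lemma norm_cor_le {f₁ f₂ : ℝ → ℂ} (h₂ : Integrable f₂) {M : ℝ} (hM : ∀ ξ, ‖f₁ ξ‖ ≤ M) (a : ℝ) :
    ‖cor f₁ f₂ a‖ ≤ M * ∫ ξ, ‖f₂ ξ‖ := by
  rw [← integral_const_mul]
  refine norm_integral_le_of_norm_le (h₂.norm.const_mul M) (Filter.Eventually.of_forall fun ξ => ?_)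
  rw [norm_mul, RCLike.norm_conj]
  exact mul_le_mul_of_nonneg_right (hM _) (norm_nonneg _)

/-- product of two Fourier integrals = Fourier integral of the correlation -/
lemma mul_conj_eq {f₁ f₂ : ℝ → ℂ} (h₁ : Integrable f₁) (h₂ : Integrable f₂) (y : ℝ) :
    (∫ ξ, f₁ ξ * ex (ξ * y)) * conj (∫ ξ, f₂ ξ * ex (ξ * y)) = ∫ a, cor f₁ f₂ a * ex (a * y) := by
  have hp := integrable_cor_prod h₁ h₂
  have hp' : Integrable (fun p : ℝ × ℝ => f₁ (p.1 + p.2) * conj (f₂ p.1) * ex (p.2 * y))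
      (volume.prod volume) := by
    refine hp.norm.mono' (hp.aestronglyMeasurable.mul ?_) (Filter.Eventually.of_forall fun p => ?_)
    · exact (continuous_ex.comp (by fun_prop)).aestronglyMeasurable
    · rw [norm_mul, norm_ex, mul_one]
  calc (∫ ξ, f₁ ξ * ex (ξ * y)) * conj (∫ ξ, f₂ ξ * ex (ξ * y))
      = (∫ ξ, f₁ ξ * ex (ξ * y)) * ∫ ξ, conj (f₂ ξ) * ex (-(ξ * y)) := by
        congr 1
        rw [← integral_conj]
        refine integral_congr_ae (Filter.Eventually.of_forall fun ξ => ?_)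
        simp only [map_mul, conj_ex]
    _ = ∫ ξ, ∫ a, f₁ (ξ + a) * conj (f₂ ξ) * ex (a * y) := by
        rw [mul_comm, ← integral_mul_const]
        refine integral_congr_ae (Filter.Eventually.of_forall fun ξ => ?_)
        simp only
        rw [← integral_const_mul]
        rw [← integral_add_left_eq_self _ ξ]
        refine integral_congr_ae (Filter.Eventually.of_forall fun a => ?_)
        simp only
        have : ex ((ξ + a) * y) = ex (ξ * y) * ex (a * y) := by rw [← ex_add]; ring_nf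
        rw [this]
        have h2 : ex (-(ξ * y)) * ex (ξ * y) = 1 := by rw [← ex_add]; simp [ex_zero]
        linear_combination (f₁ (ξ + a) * conj (f₂ ξ) * ex (a * y)) * h2
    _ = ∫ a, ∫ ξ, f₁ (ξ + a) * conj (f₂ ξ) * ex (a * y) := by
        rw [integral_integral_swap hp']
    _ = ∫ a, cor f₁ f₂ a * ex (a * y) := by
        refine integral_congr_ae (Filter.Eventually.of_forall fun a => ?_)
        simp only
        rw [integral_mul_const]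
        rfl

/-- **(A1)** -/
lemma lint_prod_eq {f₁ f₂ : ℝ → ℂ} (h₁ : Integrable f₁) (h₂ : Integrable f₂) {M : ℝ}
    (hM : ∀ a, ‖cor f₁ f₂ a‖ ≤ M) :
    ∫⁻ y : ℝ, ‖∫ ξ, f₁ ξ * ex (ξ * y)‖ₑ ^ 2 * ‖∫ ξ, f₂ ξ * ex (ξ * y)‖ₑ ^ 2
      = ∫⁻ a, ‖cor f₁ f₂ a‖ₑ ^ 2 := by
  rw [← planch1 _ (integrable_cor h₁ h₂) (memLp_two_of_bdd (integrable_cor h₁ h₂) hM)]
  refine lintegral_congr fun y => ?_
  rw [← mul_conj_eq h₁ h₂ y, enorm_mul, RCLike.enorm_conj, mul_pow]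

/-- the Gaussian `exp (-π c ξ²)` -/
noncomputable def ga (c : ℝ) (ξ : ℝ) : ℝ := Real.exp (-(Real.pi * c * ξ ^ 2))

lemma ga_nonneg (c ξ : ℝ) : 0 ≤ ga c ξ := (Real.exp_pos _).le

lemma ga_pos (c ξ : ℝ) : 0 < ga c ξ := Real.exp_pos _

lemma ga_le_one {c : ℝ} (hc : 0 ≤ c) (ξ : ℝ) : ga c ξ ≤ 1 := by
  unfold ga
  rw [Real.exp_le_one_iff]
  have := Real.pi_pos
  have : 0 ≤ Real.pi * c * ξ ^ 2 := by positivity
  linarith

lemma continuous_ga (c : ℝ) : Continuous (ga c) := by unfold ga; fun_prop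

@[fun_prop] lemma measurable_ga (c : ℝ) : Measurable (ga c) := (continuous_ga c).measurable

lemma integrable_ga {c : ℝ} (hc : 0 < c) : Integrable (ga c) := by
  have := integrable_exp_neg_mul_sq (mul_pos Real.pi_pos hc)
  refine this.congr (Filter.Eventually.of_forall fun x => ?_)
  simp only [ga]
  congr 1
  ring

lemma ga_neg (c ξ : ℝ) : ga c (-ξ) = ga c ξ := by unfold ga; congr 1; ring

lemma ga_sq (c ξ : ℝ) : ga c ξ ^ 2 = ga (2 * c) ξ := by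
  unfold ga
  rw [sq, ← Real.exp_add]
  congr 1
  ring

/-- Fourier transform of the Gaussian -/
lemma fourier_ga {c : ℝ} (hc : 0 < c) (τ : ℝ) :
    ∫ u, (ga c u : ℂ) * ex (u * τ) = (((Real.sqrt c)⁻¹ * ga c⁻¹ τ : ℝ) : ℂ) := by
  have hb : 0 < ((Real.pi * c : ℝ) : ℂ).re := by
    rw [Complex.ofReal_re]; exact mul_pos Real.pi_pos hc
  have h := fourierIntegral_gaussian hb ((2 * Real.pi * τ : ℝ) : ℂ)
  have e1 : (∫ u : ℝ, (ga c u : ℂ) * ex (u * τ)) =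
      ∫ x : ℝ, cexp (I * ((2 * Real.pi * τ : ℝ) : ℂ) * x) * cexp (-((Real.pi * c : ℝ) : ℂ) * x ^ 2) := by
    refine integral_congr_ae (Filter.Eventually.of_forall fun x => ?_)
    simp only [ga, ex]
    rw [mul_comm]
    push_cast
    congr 2 <;> ring
  rw [e1, h]
  have e2 : (((Real.pi : ℝ) : ℂ) / ((Real.pi * c : ℝ) : ℂ)) ^ (1 / 2 : ℂ) = ((Real.sqrt c)⁻¹ : ℝ) := by
    have h3 : (((Real.pi : ℝ) : ℂ) / ((Real.pi * c : ℝ) : ℂ)) = ((c⁻¹ : ℝ) : ℂ) := by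
      push_cast
      have : (Real.pi : ℂ) ≠ 0 := by exact_mod_cast Real.pi_ne_zero
      have : (c : ℂ) ≠ 0 := by exact_mod_cast hc.ne'
      field_simp
    rw [h3]
    have : (1 / 2 : ℂ) = ((1 / 2 : ℝ) : ℂ) := by push_cast; ring
    rw [this, ← Complex.ofReal_cpow (inv_nonneg.mpr hc.le), ← Real.sqrt_eq_rpow, Real.sqrt_inv]
  rw [e2]
  push_cast
  congr 1
  rw [ga]
  push_cast
  congr 1
  have h1 : (Real.pi : ℂ) ≠ 0 := by exact_mod_cast Real.pi_ne_zero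
  have h2 : (c : ℂ) ≠ 0 := by exact_mod_cast hc.ne'
  field_simp
  ring

lemma norm_gaC {c : ℝ} (ξ : ℝ) : ‖(ga c ξ : ℂ)‖ = ga c ξ := by
  rw [Complex.norm_real, Real.norm_of_nonneg (ga_nonneg _ _)]

lemma integrable_gaC {c : ℝ} (hc : 0 < c) : Integrable (fun ξ => (ga c ξ : ℂ)) :=
  (integrable_ga hc).ofReal

/-- **(A2)** Gaussian smoothing -/
lemma lint_smooth {f : ℝ → ℂ} (h : Integrable f) {c : ℝ} (hc : 0 < c) :
    ∫⁻ η : ℝ, ‖∫ ξ, f ξ * (ga c (ξ - η) : ℂ)‖ₑ ^ 2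
      = ∫⁻ τ : ℝ, ENNReal.ofReal (c⁻¹ * ga (2 * c⁻¹) τ) * ‖∫ ξ, f ξ * ex (-(ξ * τ))‖ₑ ^ 2 := by
  have hA := lint_prod_eq (integrable_gaC hc) (integrable_conj h)
    (norm_cor_le (M := 1) (integrable_conj h) fun ξ => by
      rw [norm_gaC]; exact ga_le_one hc.le _)
  have e1 : ∀ η : ℝ, (∫ ξ, f ξ * (ga c (ξ - η) : ℂ)) = cor (fun ξ => (ga c ξ : ℂ)) (fun ξ => conj (f ξ)) (-η) := by
    intro η
    unfold cor
    refine integral_congr_ae (Filter.Eventually.of_forall fun ξ => ?_)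
    simp only [Complex.conj_conj]
    rw [mul_comm, sub_eq_add_neg]
  simp_rw [e1]
  rw [lintegral_neg_eq_self (fun η : ℝ => ‖cor (fun ξ => (ga c ξ : ℂ)) (fun ξ => conj (f ξ)) η‖ₑ ^ 2),
    ← hA]
  refine lintegral_congr fun τ => ?_
  rw [fourier_ga hc]
  congr 1
  · rw [← ofReal_norm, Complex.norm_real, Real.norm_of_nonneg (mul_nonneg (by positivity) (ga_nonneg _ _)),
      ← ENNReal.ofReal_pow (mul_nonneg (by positivity) (ga_nonneg _ _)), mul_pow, ga_sq, inv_pow,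
      Real.sq_sqrt hc.le]
  · congr 1
    rw [← RCLike.enorm_conj, ← integral_conj]
    congr 1
    refine integral_congr_ae (Filter.Eventually.of_forall fun ξ => ?_)
    simp only [map_mul, Complex.conj_conj, conj_ex]

/-- `∫ g₁(ξ + a) conj (g₂ ξ) e(-w ξ) dξ` -/
noncomputable def Vh (g₁ g₂ : ℝ → ℂ) (a w : ℝ) : ℂ := ∫ ξ, g₁ (ξ + a) * conj (g₂ ξ) * ex (-(w * ξ))

/-- the localised profile -/
noncomputable def Gt (g : ℝ → ℂ) (s η t : ℝ) (ξ : ℝ) : ℂ :=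
  g ξ * (ex (-(t * ξ ^ 2)) * (ga (s ^ 2) (ξ - η) : ℂ))

lemma norm_Gt_le (g : ℝ → ℂ) (s η t ξ : ℝ) : ‖Gt g s η t ξ‖ ≤ ‖g ξ‖ := by
  unfold Gt
  rw [norm_mul, norm_mul, norm_ex, one_mul, norm_gaC]
  exact mul_le_of_le_one_right (norm_nonneg _) (ga_le_one (sq_nonneg s) _)

/-- measurable profiles in `L¹ ∩ L²` -/
structure Gm (g : ℝ → ℂ) : Prop where
  meas : Measurable g
  int : Integrable g
  sq : MemLp g 2

lemma integrable_Gt {g : ℝ → ℂ} (h : Gm g) (s η t : ℝ) : Integrable (Gt g s η t) := by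
  refine h.int.norm.mono' ?_ (Filter.Eventually.of_forall fun ξ => norm_Gt_le g s η t ξ)
  have : Measurable (Gt g s η t) := by
    unfold Gt
    exact h.meas.mul (by fun_prop)
  exact this.aestronglyMeasurable

lemma integrable_sq_norm {g : ℝ → ℂ} (h : MemLp g 2) : Integrable (fun ξ => ‖g ξ‖ ^ 2) :=
  (memLp_two_iff_integrable_sq_norm h.1).mp h

/-- the bound of correlations -/
noncomputable def bd (g₁ g₂ : ℝ → ℂ) : ℝ := (X.ms g₁ + X.ms g₂) / 2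

lemma bd_nonneg (g₁ g₂ : ℝ → ℂ) : 0 ≤ bd g₁ g₂ := by
  unfold bd X.ms
  have h1 : 0 ≤ ∫ ξ, ‖g₁ ξ‖ ^ 2 := integral_nonneg fun _ => by positivity
  have h2 : 0 ≤ ∫ ξ, ‖g₂ ξ‖ ^ 2 := integral_nonneg fun _ => by positivity
  positivity

lemma integrable_half {g₁ g₂ : ℝ → ℂ} (h₁ : MemLp g₁ 2) (h₂ : MemLp g₂ 2) (a : ℝ) :
    Integrable (fun ξ => (‖g₁ (ξ + a)‖ ^ 2 + ‖g₂ ξ‖ ^ 2) / 2) :=
  (((integrable_sq_norm h₁).comp_add_right a).add (integrable_sq_norm h₂)).div_const 2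

lemma integral_half {g₁ g₂ : ℝ → ℂ} (h₁ : MemLp g₁ 2) (h₂ : MemLp g₂ 2) (a : ℝ) :
    ∫ ξ, (‖g₁ (ξ + a)‖ ^ 2 + ‖g₂ ξ‖ ^ 2) / 2 = bd g₁ g₂ := by
  rw [integral_div, integral_add ((integrable_sq_norm h₁).comp_add_right a) (integrable_sq_norm h₂),
    integral_add_right_eq_self (fun ξ => ‖g₁ ξ‖ ^ 2) a]
  rfl

lemma norm_le_half {f₁ f₂ g₁ g₂ : ℂ} (h₁ : ‖f₁‖ ≤ ‖g₁‖) (h₂ : ‖f₂‖ ≤ ‖g₂‖) :
    ‖f₁ * conj f₂‖ ≤ (‖g₁‖ ^ 2 + ‖g₂‖ ^ 2) / 2 := by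
  rw [norm_mul, RCLike.norm_conj]
  have : ‖f₁‖ * ‖f₂‖ ≤ ‖g₁‖ * ‖g₂‖ := mul_le_mul h₁ h₂ (norm_nonneg _) (norm_nonneg _)
  nlinarith [sq_nonneg (‖g₁‖ - ‖g₂‖)]

lemma norm_cor_Gt_le {g₁ g₂ : ℝ → ℂ} (h₁ : Gm g₁) (h₂ : Gm g₂) (s η t a : ℝ) :
    ‖cor (Gt g₁ s η t) (Gt g₂ s η t) a‖ ≤ bd g₁ g₂ := by
  rw [← integral_half h₁.sq h₂.sq a]
  exact norm_integral_le_of_norm_le (integrable_half h₁.sq h₂.sq a)
    (Filter.Eventually.of_forall fun ξ => norm_le_half (norm_Gt_le _ _ _ _ _) (norm_Gt_le _ _ _ _ _))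

lemma measurable_pair {g₁ g₂ : ℝ → ℂ} (h₁ : Measurable g₁) (h₂ : Measurable g₂) (a w : ℝ) :
    Measurable (fun ξ => g₁ (ξ + a) * conj (g₂ ξ) * ex (-(w * ξ))) :=
  ((h₁.comp (measurable_add_const a)).mul (Complex.continuous_conj.measurable.comp h₂)).mul (by fun_prop)

lemma integrable_pair {g₁ g₂ : ℝ → ℂ} (h₁ : Gm g₁) (h₂ : Gm g₂) (a w : ℝ) :
    Integrable (fun ξ => g₁ (ξ + a) * conj (g₂ ξ) * ex (-(w * ξ))) := by
  refine (integrable_half h₁.sq h₂.sq a).mono' (measurable_pair h₁.meas h₂.meas a w).aestronglyMeasurable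
    (Filter.Eventually.of_forall fun ξ => ?_)
  rw [norm_mul, norm_ex, mul_one]
  exact norm_le_half le_rfl le_rfl

lemma norm_Vh_le {g₁ g₂ : ℝ → ℂ} (h₁ : Gm g₁) (h₂ : Gm g₂) (a w : ℝ) :
    ‖Vh g₁ g₂ a w‖ ≤ bd g₁ g₂ := by
  rw [← integral_half h₁.sq h₂.sq a]
  refine norm_integral_le_of_norm_le (integrable_half h₁.sq h₂.sq a)
    (Filter.Eventually.of_forall fun ξ => ?_)
  rw [norm_mul, norm_ex, mul_one]
  exact norm_le_half le_rfl le_rfl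

lemma cf_eq (g : ℝ → ℂ) {s : ℝ} (y η t : ℝ) :
    X.cf s y η t g = (((2:ℝ) ^ (1/4 : ℝ) * Real.sqrt s : ℝ) : ℂ) * ex (-(η * y)) *
      ∫ ξ, Gt g s η t ξ * ex (ξ * y) := by
  unfold X.cf
  rw [← integral_const_mul]
  refine integral_congr_ae (Filter.Eventually.of_forall fun ξ => ?_)
  simp only [Gt, X.pk, map_mul, conj_ex, Complex.conj_ofReal]
  have e1 : ex (-(t * ξ ^ 2 - y * (ξ - η))) = ex (-(t * ξ ^ 2)) * (ex (-(η * y)) * ex (ξ * y)) := by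
    rw [← ex_add, ← ex_add]; congr 1; ring
  have e2 : Real.exp (-Real.pi * s ^ 2 * (ξ - η) ^ 2) = ga (s ^ 2) (ξ - η) := by
    unfold ga; congr 1; ring
  rw [e1, e2]
  push_cast
  ring

lemma enorm_cf_sq (g : ℝ → ℂ) {s : ℝ} (hs : 0 < s) (y η t : ℝ) :
    ‖X.cf s y η t g‖ₑ ^ 2 = ENNReal.ofReal (Real.sqrt 2 * s) * ‖∫ ξ, Gt g s η t ξ * ex (ξ * y)‖ₑ ^ 2 := by
  rw [cf_eq, enorm_mul, enorm_mul, enorm_ex, mul_one, mul_pow]
  congr 1
  have h0 : (0:ℝ) ≤ (2:ℝ) ^ (1/4 : ℝ) * Real.sqrt s := by positivity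
  rw [← ofReal_norm, Complex.norm_real, Real.norm_of_nonneg h0, ← ENNReal.ofReal_pow h0, mul_pow,
    Real.sq_sqrt hs.le]
  congr 2
  rw [← Real.rpow_natCast, ← Real.rpow_mul (by norm_num), Real.sqrt_eq_rpow]
  norm_num

/-- the correlation of two localised profiles -/
lemma cor_Gt (g₁ g₂ : ℝ → ℂ) (s η t a : ℝ) :
    cor (Gt g₁ s η t) (Gt g₂ s η t) a =
      (ex (-(t * a ^ 2)) * (ga (s ^ 2 / 2) a : ℂ)) *
        ∫ ξ, (g₁ (ξ + a) * conj (g₂ ξ) * ex (-(2 * t * a * ξ))) * (ga (2 * s ^ 2) (ξ - (η - a / 2)) : ℂ) := by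
  unfold cor
  rw [← integral_const_mul]
  refine integral_congr_ae (Filter.Eventually.of_forall fun ξ => ?_)
  simp only [Gt, map_mul, conj_ex, Complex.conj_ofReal]
  have e1 : ex (-(t * (ξ + a) ^ 2)) * ex (-(-(t * ξ ^ 2))) = ex (-(t * a ^ 2)) * ex (-(2 * t * a * ξ)) := by
    rw [← ex_add, ← ex_add]; congr 1; ring
  have e2 : ga (s ^ 2) (ξ + a - η) * ga (s ^ 2) (ξ - η) = ga (s ^ 2 / 2) a * ga (2 * s ^ 2) (ξ - (η - a / 2)) := by
    unfold ga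
    rw [← Real.exp_add, ← Real.exp_add]
    congr 1
    ring
  have e2' : (ga (s ^ 2) (ξ + a - η) : ℂ) * (ga (s ^ 2) (ξ - η) : ℂ) =
      (ga (s ^ 2 / 2) a : ℂ) * (ga (2 * s ^ 2) (ξ - (η - a / 2)) : ℂ) := by exact_mod_cast e2
  linear_combination (g₁ (ξ + a) * conj (g₂ ξ) * ((ga (s ^ 2) (ξ + a - η) : ℂ) * (ga (s ^ 2) (ξ - η) : ℂ))) * e1 +
    (g₁ (ξ + a) * conj (g₂ ξ) * (ex (-(t * a ^ 2)) * ex (-(2 * t * a * ξ)))) * e2'

/-- the two-scale quartic functional of a pair of profiles -/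
noncomputable def JJ (g₁ g₂ : ℝ → ℂ) (p q t : ℝ) : ℝ≥0∞ :=
  ∫⁻ a, ENNReal.ofReal (ga (p ^ 2) a) *
    ∫⁻ τ, ENNReal.ofReal (q⁻¹ * ga (q ^ 2)⁻¹ τ) * ‖Vh g₁ g₂ a (2 * t * a + τ)‖ₑ ^ 2

lemma measurable_Gt_uncurry {g : ℝ → ℂ} (h : Measurable g) (s t : ℝ) :
    Measurable (fun p : ℝ × ℝ => Gt g s p.1 t p.2) := by
  unfold Gt
  exact (h.comp measurable_snd).mul ((by fun_prop : Measurable fun p : ℝ × ℝ => ex (-(t * p.2 ^ 2))).mul
    (Complex.measurable_ofReal.comp ((measurable_ga _).comp (by fun_prop))))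

/-- **Lemma A** -/
theorem lint_cf_eq {g₁ g₂ : ℝ → ℂ} (h₁ : Gm g₁) (h₂ : Gm g₂) {s : ℝ} (hs : 0 < s) (t : ℝ) :
    ∫⁻ η, ∫⁻ y, ‖X.cf s y η t g₁‖ₑ ^ 2 * ‖X.cf s y η t g₂‖ₑ ^ 2 = ENNReal.ofReal s * JJ g₁ g₂ s s t := by
  have e1 : ∀ η, ∫⁻ y, ‖X.cf s y η t g₁‖ₑ ^ 2 * ‖X.cf s y η t g₂‖ₑ ^ 2 =
      ENNReal.ofReal (2 * s ^ 2) * ∫⁻ a, ‖cor (Gt g₁ s η t) (Gt g₂ s η t) a‖ₑ ^ 2 := by
    intro η
    rw [← lint_prod_eq (integrable_Gt h₁ s η t) (integrable_Gt h₂ s η t) (norm_cor_Gt_le h₁ h₂ s η t),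
      ← lintegral_const_mul' _ _ ENNReal.ofReal_ne_top]
    refine lintegral_congr fun y => ?_
    rw [enorm_cf_sq g₁ hs, enorm_cf_sq g₂ hs]
    have : ENNReal.ofReal (2 * s ^ 2) = ENNReal.ofReal (Real.sqrt 2 * s) * ENNReal.ofReal (Real.sqrt 2 * s) := by
      rw [← ENNReal.ofReal_mul (by positivity)]
      congr 1
      have := Real.mul_self_sqrt (show (0:ℝ) ≤ 2 by norm_num)
      nlinarith
    rw [this]
    ring
  simp_rw [e1]
  have hmeas : Measurable (fun p : ℝ × ℝ => cor (Gt g₁ s p.1 t) (Gt g₂ s p.1 t) p.2) := by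
    unfold cor
    have hF : Measurable (fun p : (ℝ × ℝ) × ℝ => Gt g₁ s p.1.1 t (p.2 + p.1.2) * conj (Gt g₂ s p.1.1 t p.2)) := by
      refine Measurable.mul ?_ (Complex.continuous_conj.measurable.comp ?_)
      · exact (measurable_Gt_uncurry h₁.meas s t).comp (by fun_prop : Measurable fun p : (ℝ × ℝ) × ℝ => (p.1.1, p.2 + p.1.2))
      · exact (measurable_Gt_uncurry h₂.meas s t).comp (by fun_prop : Measurable fun p : (ℝ × ℝ) × ℝ => (p.1.1, p.2))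
    exact hF.stronglyMeasurable.integral_prod_right'.measurable
  rw [lintegral_const_mul' _ _ ENNReal.ofReal_ne_top, lintegral_lintegral_swap (by
    exact (hmeas.enorm.pow_const 2).aemeasurable)]
  unfold JJ
  rw [← lintegral_const_mul' _ _ ENNReal.ofReal_ne_top, ← lintegral_const_mul' _ _ ENNReal.ofReal_ne_top]
  refine lintegral_congr fun a => ?_
  have e2 : ∀ η, ‖cor (Gt g₁ s η t) (Gt g₂ s η t) a‖ₑ ^ 2 = ENNReal.ofReal (ga (s ^ 2) a) *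
      ‖∫ ξ, (g₁ (ξ + a) * conj (g₂ ξ) * ex (-(2 * t * a * ξ))) * (ga (2 * s ^ 2) (ξ - (η - a / 2)) : ℂ)‖ₑ ^ 2 := by
    intro η
    rw [cor_Gt, enorm_mul, enorm_mul, enorm_ex, one_mul, mul_pow]
    congr 1
    rw [← ofReal_norm, norm_gaC, ← ENNReal.ofReal_pow (ga_nonneg _ _), ga_sq]
    congr 2
    ring
  simp_rw [e2]
  rw [lintegral_const_mul' _ _ ENNReal.ofReal_ne_top,
    lintegral_sub_right_eq_self (fun η => ‖∫ ξ, (g₁ (ξ + a) * conj (g₂ ξ) * ex (-(2 * t * a * ξ))) * (ga (2 * s ^ 2) (ξ - η) : ℂ)‖ₑ ^ 2) (a / 2),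
    lint_smooth (integrable_pair h₁ h₂ a (2 * t * a)) (by positivity : (0:ℝ) < 2 * s ^ 2)]
  have e3 : ∀ τ, ENNReal.ofReal ((2 * s ^ 2)⁻¹ * ga (2 * (2 * s ^ 2)⁻¹) τ) *
      ‖∫ ξ, g₁ (ξ + a) * conj (g₂ ξ) * ex (-(2 * t * a * ξ)) * ex (-(ξ * τ))‖ₑ ^ 2 =
      ENNReal.ofReal ((2 * s)⁻¹) * (ENNReal.ofReal (s⁻¹ * ga (s ^ 2)⁻¹ τ) * ‖Vh g₁ g₂ a (2 * t * a + τ)‖ₑ ^ 2) := by
    intro τ
    have : (∫ ξ, g₁ (ξ + a) * conj (g₂ ξ) * ex (-(2 * t * a * ξ)) * ex (-(ξ * τ))) = Vh g₁ g₂ a (2 * t * a + τ) := by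
      unfold Vh
      refine integral_congr_ae (Filter.Eventually.of_forall fun ξ => ?_)
      simp only
      rw [mul_assoc, ← ex_add]
      congr 2
      ring
    rw [this, ← mul_assoc, ← ENNReal.ofReal_mul (by positivity)]
    congr 2
    have : 2 * (2 * s ^ 2)⁻¹ = (s ^ 2)⁻¹ := by field_simp
    rw [this]
    field_simp
  simp_rw [e3]
  rw [lintegral_const_mul' _ _ ENNReal.ofReal_ne_top]
  have e4 : ENNReal.ofReal (2 * s ^ 2) * ENNReal.ofReal ((2 * s)⁻¹) = ENNReal.ofReal s := by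
    rw [← ENNReal.ofReal_mul (by positivity)]
    congr 1
    field_simp
  rw [← e4]
  ring

end Vale.Agent.P076.H416
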