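import Mathlib
import Vale.Agent.P076.H416.Tel
import Vale.Agent.P076.X.Spec

/-! # P076, block X.TEL: `StFid`, `StTelA`, `StBHL` -/

open MeasureTheory Complex Set FourierTransform
open scoped ENNReal NNReal ComplexConjugate

set_option linter.all false

namespace Vale.Agent.P076.H416

open X (ex)

lemma measurable_Vh {g₁ g₂ : ℝ → ℂ} (h₁ : Measurable g₁) (h₂ : Measurable g₂) :
    Measurable (fun p : ℝ × ℝ => Vh g₁ g₂ p.1 p.2) := by
  unfold Vh
  have hF : Measurable (fun p : (ℝ × ℝ) × ℝ => g₁ (p.2 + p.1.1) * conj (g₂ p.2) * ex (-(p.1.2 * p.2))) := by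
    refine ((h₁.comp (by fun_prop : Measurable fun p : (ℝ × ℝ) × ℝ => p.2 + p.1.1)).mul
      (Complex.continuous_conj.measurable.comp (h₂.comp measurable_snd))).mul (by fun_prop)
  exact hF.stronglyMeasurable.integral_prod_right'.measurable

/-- the inner integral -/
noncomputable def II (g₁ g₂ : ℝ → ℂ) (q t a : ℝ) : ℝ :=
  ∫ τ, (q⁻¹ * ga (q ^ 2)⁻¹ τ) * ‖Vh g₁ g₂ a (2 * t * a + τ)‖ ^ 2

/-- the two-scale functional, real version -/
noncomputable def JR (g₁ g₂ : ℝ → ℂ) (p q t : ℝ) : ℝ := ∫ a, ga (p ^ 2) a * II g₁ g₂ q t a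

lemma integral_ga {c : ℝ} (hc : 0 < c) : ∫ u, ga c u = (Real.sqrt c)⁻¹ := by
  have h := fourier_ga hc 0
  simp only [mul_zero, ex_zero, mul_one] at h
  rw [integral_complex_ofReal] at h
  have h' : (∫ u, ga c u) = (Real.sqrt c)⁻¹ * ga c⁻¹ 0 := by exact_mod_cast h
  rw [h']
  simp [ga]

lemma integral_G {q : ℝ} (hq : 0 < q) : ∫ τ, q⁻¹ * ga (q ^ 2)⁻¹ τ = 1 := by
  rw [integral_const_mul, integral_ga (by positivity), Real.sqrt_inv, Real.sqrt_sq hq.le, inv_inv,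
    inv_mul_cancel₀ hq.ne']

lemma integrable_G {q : ℝ} (hq : 0 < q) : Integrable (fun τ => q⁻¹ * ga (q ^ 2)⁻¹ τ) :=
  (integrable_ga (by positivity)).const_mul _

lemma sq_Vh_le {g₁ g₂ : ℝ → ℂ} (h₁ : Gm g₁) (h₂ : Gm g₂) (a w : ℝ) :
    ‖Vh g₁ g₂ a w‖ ^ 2 ≤ bd g₁ g₂ ^ 2 :=
  pow_le_pow_left₀ (norm_nonneg _) (norm_Vh_le h₁ h₂ a w) 2

lemma integrable_inner {g₁ g₂ : ℝ → ℂ} (h₁ : Gm g₁) (h₂ : Gm g₂) {q : ℝ} (hq : 0 < q) (t a : ℝ) :
    Integrable (fun τ => (q⁻¹ * ga (q ^ 2)⁻¹ τ) * ‖Vh g₁ g₂ a (2 * t * a + τ)‖ ^ 2) := by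
  have hm : Measurable (fun τ => Vh g₁ g₂ a (2 * t * a + τ)) :=
    (measurable_Vh h₁.meas h₂.meas).comp (by fun_prop : Measurable fun τ : ℝ => (a, 2 * t * a + τ))
  refine ((integrable_G hq).mul_const (bd g₁ g₂ ^ 2)).mono' (by
    exact ((measurable_ga _).const_mul _ |>.mul (hm.norm.pow_const 2)).aestronglyMeasurable)
    (Filter.Eventually.of_forall fun τ => ?_)
  have h0 : 0 ≤ q⁻¹ * ga (q ^ 2)⁻¹ τ := mul_nonneg (by positivity) (ga_nonneg _ _)
  rw [Real.norm_of_nonneg (mul_nonneg h0 (by positivity))]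
  exact mul_le_mul_of_nonneg_left (sq_Vh_le h₁ h₂ _ _) h0

lemma II_nonneg (g₁ g₂ : ℝ → ℂ) {q : ℝ} (hq : 0 < q) (t a : ℝ) : 0 ≤ II g₁ g₂ q t a :=
  integral_nonneg fun τ => mul_nonneg (mul_nonneg (by positivity) (ga_nonneg _ _)) (by positivity)

lemma II_le {g₁ g₂ : ℝ → ℂ} (h₁ : Gm g₁) (h₂ : Gm g₂) {q : ℝ} (hq : 0 < q) (t a : ℝ) :
    II g₁ g₂ q t a ≤ bd g₁ g₂ ^ 2 := by
  have : II g₁ g₂ q t a ≤ ∫ τ, (q⁻¹ * ga (q ^ 2)⁻¹ τ) * bd g₁ g₂ ^ 2 := by
    refine integral_mono (integrable_inner h₁ h₂ hq t a) ((integrable_G hq).mul_const _) fun τ => ?_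
    exact mul_le_mul_of_nonneg_left (sq_Vh_le h₁ h₂ _ _) (mul_nonneg (by positivity) (ga_nonneg _ _))
  rwa [integral_mul_const, integral_G hq, one_mul] at this

lemma measurable_II {g₁ g₂ : ℝ → ℂ} (h₁ : Gm g₁) (h₂ : Gm g₂) (q : ℝ) :
    Measurable (fun p : ℝ × ℝ => II g₁ g₂ q p.1 p.2) := by
  unfold II
  have hF : Measurable (fun p : (ℝ × ℝ) × ℝ => (q⁻¹ * ga (q ^ 2)⁻¹ p.2) *
      ‖Vh g₁ g₂ p.1.2 (2 * p.1.1 * p.1.2 + p.2)‖ ^ 2) := by
    refine (((measurable_ga _).comp measurable_snd).const_mul _).mul (Measurable.pow_const (Measurable.norm ?_) 2)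
    exact (measurable_Vh h₁.meas h₂.meas).comp
      (by fun_prop : Measurable fun p : (ℝ × ℝ) × ℝ => (p.1.2, 2 * p.1.1 * p.1.2 + p.2))
  exact hF.stronglyMeasurable.integral_prod_right'.measurable

lemma ofReal_II {g₁ g₂ : ℝ → ℂ} (h₁ : Gm g₁) (h₂ : Gm g₂) {q : ℝ} (hq : 0 < q) (t a : ℝ) :
    ENNReal.ofReal (II g₁ g₂ q t a) =
      ∫⁻ τ, ENNReal.ofReal (q⁻¹ * ga (q ^ 2)⁻¹ τ) * ‖Vh g₁ g₂ a (2 * t * a + τ)‖ₑ ^ 2 := by
  unfold II
  rw [ofReal_integral_eq_lintegral_ofReal (integrable_inner h₁ h₂ hq t a)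
    (Filter.Eventually.of_forall fun τ => mul_nonneg (mul_nonneg (by positivity) (ga_nonneg _ _)) (by positivity))]
  refine lintegral_congr fun τ => ?_
  rw [ENNReal.ofReal_mul (mul_nonneg (by positivity) (ga_nonneg _ _)), ENNReal.ofReal_pow (norm_nonneg _),
    ofReal_norm]

lemma integrable_JR {g₁ g₂ : ℝ → ℂ} (h₁ : Gm g₁) (h₂ : Gm g₂) {q : ℝ} (hq : 0 < q) (t : ℝ)
    {m : ℝ → ℝ} (hm : Integrable m) : Integrable (fun a => m a * II g₁ g₂ q t a) := by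
  refine (hm.norm.mul_const (bd g₁ g₂ ^ 2)).mono' (hm.1.mul (((measurable_II h₁ h₂ q).comp
    (by fun_prop : Measurable fun a : ℝ => (t, a))).aestronglyMeasurable)) (Filter.Eventually.of_forall fun a => ?_)
  rw [norm_mul]
  refine mul_le_mul_of_nonneg_left ?_ (norm_nonneg _)
  rw [Real.norm_of_nonneg (II_nonneg _ _ hq _ _)]
  exact II_le h₁ h₂ hq t a

lemma JR_nonneg (g₁ g₂ : ℝ → ℂ) (p : ℝ) {q : ℝ} (hq : 0 < q) (t : ℝ) : 0 ≤ JR g₁ g₂ p q t :=
  integral_nonneg fun a => mul_nonneg (ga_nonneg _ _) (II_nonneg _ _ hq _ _)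

lemma ofReal_JR {g₁ g₂ : ℝ → ℂ} (h₁ : Gm g₁) (h₂ : Gm g₂) {p q : ℝ} (hp : 0 < p) (hq : 0 < q) (t : ℝ) :
    ENNReal.ofReal (JR g₁ g₂ p q t) = JJ g₁ g₂ p q t := by
  unfold JR JJ
  rw [ofReal_integral_eq_lintegral_ofReal (integrable_JR h₁ h₂ hq t (integrable_ga (by positivity)))
    (Filter.Eventually.of_forall fun a => mul_nonneg (ga_nonneg _ _) (II_nonneg _ _ hq _ _))]
  refine lintegral_congr fun a => ?_
  rw [ENNReal.ofReal_mul (ga_nonneg _ _), ofReal_II h₁ h₂ hq]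

/-- the Fourier identity behind the symmetry -/
lemma II_eq {g₁ g₂ : ℝ → ℂ} (h₁ : Gm g₁) (h₂ : Gm g₂) {q : ℝ} (hq : 0 < q) (t a : ℝ) :
    ((II g₁ g₂ q t a : ℝ) : ℂ) = ∫ b, (ga (q ^ 2) b : ℂ) * ex (-(2 * t * a * b)) *
      cor (fun ξ => g₁ (ξ + a) * conj (g₂ ξ)) (fun ξ => g₁ (ξ + a) * conj (g₂ ξ)) b := by
  set f : ℝ → ℂ := fun ξ => g₁ (ξ + a) * conj (g₂ ξ) with hf
  have hfi : Integrable f := by
    have := integrable_pair h₁ h₂ a 0
    refine this.congr (Filter.Eventually.of_forall fun ξ => ?_)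
    simp [hf, ex_zero]
  have hK := integrable_cor hfi hfi
  have e1 : ∀ w : ℝ, ((‖Vh g₁ g₂ a w‖ ^ 2 : ℝ) : ℂ) = ∫ b, cor f f b * ex (b * (-w)) := by
    intro w
    rw [← mul_conj_eq hfi hfi (-w), Complex.mul_conj, Complex.normSq_eq_norm_sq]
    congr 3
    unfold Vh
    refine integral_congr_ae (Filter.Eventually.of_forall fun ξ => ?_)
    simp only [hf]
    congr 2
    ring
  have hint : Integrable (fun p : ℝ × ℝ => ((q⁻¹ * ga (q ^ 2)⁻¹ p.1 : ℝ) : ℂ) * (cor f f p.2 *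
      ex (p.2 * (-(2 * t * a + p.1))))) (volume.prod volume) := by
    have h1 : Integrable (fun p : ℝ × ℝ => ((q⁻¹ * ga (q ^ 2)⁻¹ p.1 : ℝ) : ℂ) * cor f f p.2)
        (volume.prod volume) := (integrable_G hq).ofReal.mul_prod hK
    refine h1.norm.mono' ?_ (Filter.Eventually.of_forall fun p => ?_)
    · have h2 := h1.aestronglyMeasurable.mul (continuous_ex.comp
        (by fun_prop : Continuous fun p : ℝ × ℝ => p.2 * (-(2 * t * a + p.1)))).aestronglyMeasurable (μ := volume.prod volume)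
      refine h2.congr (Filter.Eventually.of_forall fun p => ?_)
      simp only [Pi.mul_apply, Function.comp_apply]
      ring
    · rw [norm_mul, norm_mul, norm_ex, mul_one, norm_mul]
  calc ((II g₁ g₂ q t a : ℝ) : ℂ)
      = ∫ τ, ((q⁻¹ * ga (q ^ 2)⁻¹ τ : ℝ) : ℂ) * ∫ b, cor f f b * ex (b * (-(2 * t * a + τ))) := by
        unfold II
        rw [← integral_complex_ofReal]
        refine integral_congr_ae (Filter.Eventually.of_forall fun τ => ?_)
        simp only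
        rw [← e1]
        push_cast
        ring
    _ = ∫ τ, ∫ b, ((q⁻¹ * ga (q ^ 2)⁻¹ τ : ℝ) : ℂ) * (cor f f b * ex (b * (-(2 * t * a + τ)))) := by
        refine integral_congr_ae (Filter.Eventually.of_forall fun τ => ?_)
        simp only
        rw [integral_const_mul]
    _ = ∫ b, ∫ τ, ((q⁻¹ * ga (q ^ 2)⁻¹ τ : ℝ) : ℂ) * (cor f f b * ex (b * (-(2 * t * a + τ)))) :=
        integral_integral_swap hint
    _ = _ := by
        refine integral_congr_ae (Filter.Eventually.of_forall fun b => ?_)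
        simp only
        have e2 : ∀ τ : ℝ, ((q⁻¹ * ga (q ^ 2)⁻¹ τ : ℝ) : ℂ) * (cor f f b * ex (b * (-(2 * t * a + τ)))) =
            (cor f f b * ex (-(2 * t * a * b)) * ((q⁻¹ : ℝ) : ℂ)) * ((ga (q ^ 2)⁻¹ τ : ℂ) * ex (τ * (-b))) := by
          intro τ
          have : ex (b * (-(2 * t * a + τ))) = ex (-(2 * t * a * b)) * ex (τ * (-b)) := by
            rw [← ex_add]; congr 1; ring
          rw [this]
          push_cast
          ring
        simp_rw [e2]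
        rw [integral_const_mul, fourier_ga (by positivity : (0:ℝ) < (q ^ 2)⁻¹), ga_neg, inv_inv, Real.sqrt_inv,
          Real.sqrt_sq hq.le, inv_inv]
        push_cast
        have : (q : ℂ) ≠ 0 := by exact_mod_cast hq.ne'
        field_simp

/-- the symmetric double correlation -/
noncomputable def RR (g : ℝ → ℂ) (a b : ℝ) : ℂ :=
  cor (fun ξ => g (ξ + a) * conj (g ξ)) (fun ξ => g (ξ + a) * conj (g ξ)) b

lemma RR_symm (g : ℝ → ℂ) (a b : ℝ) : RR g a b = RR g b a := by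
  unfold RR cor
  refine integral_congr_ae (Filter.Eventually.of_forall fun ξ => ?_)
  simp only [map_mul, Complex.conj_conj]
  have : ξ + b + a = ξ + a + b := by ring
  rw [this]
  ring

lemma measurable_RR {g : ℝ → ℂ} (h : Measurable g) : Measurable (fun p : ℝ × ℝ => RR g p.1 p.2) := by
  unfold RR cor
  have hc := Complex.continuous_conj.measurable
  have hF : Measurable (fun p : (ℝ × ℝ) × ℝ => g (p.2 + p.1.2 + p.1.1) * conj (g (p.2 + p.1.2)) *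
      conj (g (p.2 + p.1.1) * conj (g p.2))) := by
    refine Measurable.mul (Measurable.mul (h.comp (by fun_prop)) (hc.comp (h.comp (by fun_prop))))
      (hc.comp (Measurable.mul (h.comp (by fun_prop)) (hc.comp (h.comp (by fun_prop)))))
  exact hF.stronglyMeasurable.integral_prod_right'.measurable

lemma lint_RR_le {g : ℝ → ℂ} (h : Gm g) (a : ℝ) :
    ∫⁻ b, ‖RR g a b‖ₑ ≤ ENNReal.ofReal (bd g g) * ENNReal.ofReal (bd g g) := by
  set f : ℝ → ℂ := fun ξ => g (ξ + a) * conj (g ξ) with hf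
  have hfm : Measurable f :=
    (h.meas.comp (measurable_add_const a)).mul (Complex.continuous_conj.measurable.comp h.meas)
  have hfl : ∫⁻ ξ, ‖f ξ‖ₑ ≤ ENNReal.ofReal (bd g g) := by
    rw [← integral_half h.sq h.sq a, ofReal_integral_eq_lintegral_ofReal (integrable_half h.sq h.sq a)
      (Filter.Eventually.of_forall fun ξ => by positivity)]
    refine lintegral_mono fun ξ => ?_
    rw [← ofReal_norm]
    exact ENNReal.ofReal_le_ofReal (norm_le_half le_rfl le_rfl)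
  calc ∫⁻ b, ‖RR g a b‖ₑ ≤ ∫⁻ b, ∫⁻ ξ, ‖f (ξ + b)‖ₑ * ‖f ξ‖ₑ := by
        refine lintegral_mono fun b => (enorm_integral_le_lintegral_enorm _).trans (le_of_eq ?_)
        refine lintegral_congr fun ξ => ?_
        rw [enorm_mul, RCLike.enorm_conj]
    _ = ∫⁻ ξ, ∫⁻ b, ‖f (ξ + b)‖ₑ * ‖f ξ‖ₑ := by
        refine lintegral_lintegral_swap ?_
        exact ((hfm.comp (by fun_prop : Measurable fun p : ℝ × ℝ => p.2 + p.1)).enorm.mul
          (hfm.comp measurable_snd).enorm).aemeasurable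
    _ = ∫⁻ ξ, (∫⁻ b, ‖f b‖ₑ) * ‖f ξ‖ₑ := by
        refine lintegral_congr fun ξ => ?_
        have h1 : Measurable (fun b => ‖f (ξ + b)‖ₑ) := (hfm.comp (measurable_const_add ξ)).enorm
        rw [lintegral_mul_const _ h1, lintegral_add_left_eq_self (fun b => ‖f b‖ₑ) ξ]
    _ = (∫⁻ b, ‖f b‖ₑ) * ∫⁻ ξ, ‖f ξ‖ₑ := by
        rw [lintegral_const_mul _ hfm.enorm]
    _ ≤ _ := mul_le_mul' hfl hfl

/-- the complex integrand -/
noncomputable def HH (g : ℝ → ℂ) (p q t a b : ℝ) : ℂ :=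
  (ga (p ^ 2) a : ℂ) * ((ga (q ^ 2) b : ℂ) * ex (-(2 * t * a * b)) * RR g a b)

lemma integrable_HH {g : ℝ → ℂ} (h : Gm g) {p q : ℝ} (hp : 0 < p) (hq : 0 < q) (t : ℝ) :
    Integrable (fun x : ℝ × ℝ => HH g p q t x.1 x.2) (volume.prod volume) := by
  have hm : Measurable (fun x : ℝ × ℝ => HH g p q t x.1 x.2) := by
    unfold HH
    refine (Complex.measurable_ofReal.comp ((measurable_ga _).comp measurable_fst)).mul
      (((Complex.measurable_ofReal.comp ((measurable_ga _).comp measurable_snd)).mul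
        (by fun_prop)).mul (measurable_RR h.meas))
  refine ⟨hm.aestronglyMeasurable, ?_⟩
  unfold HasFiniteIntegral
  rw [lintegral_prod _ hm.enorm.aemeasurable]
  calc ∫⁻ a, ∫⁻ b, ‖HH g p q t a b‖ₑ ≤ ∫⁻ a, ENNReal.ofReal (ga (p ^ 2) a) *
        (ENNReal.ofReal (bd g g) * ENNReal.ofReal (bd g g)) := by
        refine lintegral_mono fun a => ?_
        refine le_trans ?_ (mul_le_mul_right (lint_RR_le h a) _)
        rw [← lintegral_const_mul' _ _ ENNReal.ofReal_ne_top]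
        refine lintegral_mono fun b => ?_
        unfold HH
        rw [enorm_mul, enorm_mul, enorm_mul, enorm_ex, mul_one, ← ofReal_norm, norm_gaC]
        refine mul_le_mul_right (?_ : _ ≤ _) _
        calc ‖(ga (q ^ 2) b : ℂ)‖ₑ * ‖RR g a b‖ₑ ≤ 1 * ‖RR g a b‖ₑ := by
              refine mul_le_mul_left ?_ _
              rw [← ofReal_norm, norm_gaC]
              exact ENNReal.ofReal_le_one.mpr (ga_le_one (sq_nonneg q) _)
          _ = _ := one_mul _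
    _ = (∫⁻ a, ENNReal.ofReal (ga (p ^ 2) a)) * (ENNReal.ofReal (bd g g) * ENNReal.ofReal (bd g g)) := by
        rw [lintegral_mul_const _ (measurable_ga _).ennreal_ofReal]
    _ < ⊤ := by
        refine ENNReal.mul_lt_top ?_ (ENNReal.mul_lt_top ENNReal.ofReal_lt_top ENNReal.ofReal_lt_top)
        exact (integrable_ga (by positivity : 0 < p ^ 2)).lintegral_lt_top

lemma JR_eq {g : ℝ → ℂ} (h : Gm g) {p q : ℝ} (hq : 0 < q) (t : ℝ) :
    ((JR g g p q t : ℝ) : ℂ) = ∫ a, ∫ b, HH g p q t a b := by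
  unfold JR HH
  rw [← integral_complex_ofReal]
  refine integral_congr_ae (Filter.Eventually.of_forall fun a => ?_)
  simp only
  rw [integral_const_mul, Complex.ofReal_mul, II_eq h h hq]
  rfl

/-- **symmetry** -/
theorem JR_symm {g : ℝ → ℂ} (h : Gm g) {p q : ℝ} (hp : 0 < p) (hq : 0 < q) (t : ℝ) :
    JR g g p q t = JR g g q p t := by
  have : ((JR g g p q t : ℝ) : ℂ) = ((JR g g q p t : ℝ) : ℂ) := by
    rw [JR_eq h hq, JR_eq h hp, integral_integral_swap (integrable_HH h hp hq t)]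
    refine integral_congr_ae (Filter.Eventually.of_forall fun a => ?_)
    refine integral_congr_ae (Filter.Eventually.of_forall fun b => ?_)
    simp only [HH]
    rw [RR_symm g a b]
    have : 2 * t * b * a = 2 * t * a * b := by ring
    rw [this]
    ring
  exact_mod_cast this

/-! ### passage to `X.uh`, `X.Fq` and good profiles -/

lemma norm_uh (g₁ g₂ : ℝ → ℂ) (a t : ℝ) : ‖X.uh g₁ g₂ a t‖ = ‖Vh g₁ g₂ a (2 * t * a)‖ := by
  have : X.uh g₁ g₂ a t = ex (-(t * a ^ 2)) * Vh g₁ g₂ a (2 * t * a) := by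
    unfold X.uh Vh
    rw [← integral_const_mul]
    refine integral_congr_ae (Filter.Eventually.of_forall fun ξ => ?_)
    simp only
    have : ex (-(t * ((ξ + a) ^ 2 - ξ ^ 2))) = ex (-(t * a ^ 2)) * ex (-(2 * t * a * ξ)) := by
      rw [← ex_add]; congr 1; ring
    rw [this]
    ring
  rw [this, norm_mul, norm_ex, one_mul]

/-- a measurable representative -/
lemma exists_meas {g : ℝ → ℂ} (h : X.Good g) : ∃ g' : ℝ → ℂ, Gm g' ∧ g =ᵐ[volume] g' := by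
  obtain ⟨h1, h2⟩ := h
  have hm := h1.aestronglyMeasurable
  refine ⟨hm.mk g, ⟨hm.stronglyMeasurable_mk.measurable, h1.congr hm.ae_eq_mk, h2.ae_eq hm.ae_eq_mk⟩, hm.ae_eq_mk⟩

lemma cf_congr {g g' : ℝ → ℂ} (h : g =ᵐ[volume] g') (s y η t : ℝ) : X.cf s y η t g = X.cf s y η t g' := by
  unfold X.cf
  exact integral_congr_ae (h.mono fun ξ hξ => by simp only [hξ])

lemma uh_congr {g₁ g₂ g₁' g₂' : ℝ → ℂ} (h₁ : g₁ =ᵐ[volume] g₁') (h₂ : g₂ =ᵐ[volume] g₂') (a t : ℝ) :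
    X.uh g₁ g₂ a t = X.uh g₁' g₂' a t := by
  unfold X.uh
  have h3 : ∀ᵐ ξ, g₁ (ξ + a) = g₁' (ξ + a) :=
    (measurePreserving_add_right volume a).quasiMeasurePreserving.ae h₁
  refine integral_congr_ae ?_
  filter_upwards [h3, h₂] with ξ hξ hξ'
  rw [hξ, hξ']

lemma Fq_congr {g₁ g₂ g₁' g₂' : ℝ → ℂ} (h₁ : g₁ =ᵐ[volume] g₁') (h₂ : g₂ =ᵐ[volume] g₂') (s t : ℝ) :
    X.Fq s t g₁ g₂ = X.Fq s t g₁' g₂' := by
  unfold X.Fq
  simp_rw [cf_congr h₁, cf_congr h₂]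

lemma measurable_cf {g : ℝ → ℂ} (h : Measurable g) (s t : ℝ) :
    Measurable (fun p : ℝ × ℝ => X.cf s p.1 p.2 t g) := by
  unfold X.cf X.pk
  have hF : Measurable (fun p : (ℝ × ℝ) × ℝ => g p.2 * conj (((((2:ℝ) ^ (1/4 : ℝ) * Real.sqrt s *
      Real.exp (-Real.pi * s ^ 2 * (p.2 - p.1.2) ^ 2) : ℝ) : ℂ)
    * ex (t * p.2 ^ 2 - p.1.1 * (p.2 - p.1.2))))) := by
    refine (h.comp measurable_snd).mul (Complex.continuous_conj.measurable.comp (Measurable.mul ?_ ?_))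
    · exact Complex.measurable_ofReal.comp (by fun_prop)
    · fun_prop
  exact hF.stronglyMeasurable.integral_prod_right'.measurable

lemma lint_cf_prod {g₁ g₂ : ℝ → ℂ} (h₁ : Gm g₁) (h₂ : Gm g₂) {s : ℝ} (hs : 0 < s) (t : ℝ) :
    ∫⁻ p : ℝ × ℝ, ENNReal.ofReal (‖X.cf s p.1 p.2 t g₁‖ ^ 2 * ‖X.cf s p.1 p.2 t g₂‖ ^ 2) =
      ENNReal.ofReal (s * JR g₁ g₂ s s t) := by
  have e : ∀ p : ℝ × ℝ, ENNReal.ofReal (‖X.cf s p.1 p.2 t g₁‖ ^ 2 * ‖X.cf s p.1 p.2 t g₂‖ ^ 2) =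
      ‖X.cf s p.1 p.2 t g₁‖ₑ ^ 2 * ‖X.cf s p.1 p.2 t g₂‖ₑ ^ 2 := by
    intro p
    rw [ENNReal.ofReal_mul (by positivity), ENNReal.ofReal_pow (norm_nonneg _),
      ENNReal.ofReal_pow (norm_nonneg _), ofReal_norm, ofReal_norm]
  simp_rw [e]
  have hm : Measurable (fun p : ℝ × ℝ => ‖X.cf s p.1 p.2 t g₁‖ₑ ^ 2 * ‖X.cf s p.1 p.2 t g₂‖ₑ ^ 2) :=
    ((measurable_cf h₁.meas s t).enorm.pow_const 2).mul ((measurable_cf h₂.meas s t).enorm.pow_const 2)
  rw [Measure.volume_eq_prod, lintegral_prod_symm' _ hm, lint_cf_eq h₁ h₂ hs t,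
    ENNReal.ofReal_mul hs.le, ofReal_JR h₁ h₂ hs hs]

lemma integrable_cf_prod {g₁ g₂ : ℝ → ℂ} (h₁ : Gm g₁) (h₂ : Gm g₂) {s : ℝ} (hs : 0 < s) (t : ℝ) :
    Integrable (fun p : ℝ × ℝ => ‖X.cf s p.1 p.2 t g₁‖ ^ 2 * ‖X.cf s p.1 p.2 t g₂‖ ^ 2) := by
  have hm : Measurable (fun p : ℝ × ℝ => ‖X.cf s p.1 p.2 t g₁‖ ^ 2 * ‖X.cf s p.1 p.2 t g₂‖ ^ 2) :=
    ((measurable_cf h₁.meas s t).norm.pow_const 2).mul ((measurable_cf h₂.meas s t).norm.pow_const 2)
  refine ⟨hm.aestronglyMeasurable, ?_⟩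
  rw [hasFiniteIntegral_iff_ofReal (Filter.Eventually.of_forall fun p => by positivity), lint_cf_prod h₁ h₂ hs]
  exact ENNReal.ofReal_lt_top

lemma Fq_eq {g₁ g₂ : ℝ → ℂ} (h₁ : Gm g₁) (h₂ : Gm g₂) {s : ℝ} (hs : 0 < s) (t : ℝ) :
    X.Fq s t g₁ g₂ = JR g₁ g₂ s s t := by
  unfold X.Fq
  rw [integral_eq_lintegral_of_nonneg_ae (Filter.Eventually.of_forall fun p => by positivity)
    (integrable_cf_prod h₁ h₂ hs t).1, lint_cf_prod h₁ h₂ hs,
    ENNReal.toReal_ofReal (mul_nonneg hs.le (JR_nonneg _ _ _ hs _))]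
  field_simp

lemma ga_sq_eq (s a : ℝ) : Real.exp (-(Real.pi * s ^ 2 * a ^ 2)) = ga (s ^ 2) a := rfl

theorem stFid : X.StFid := by
  intro s hs t g₁ g₂ h₁ h₂
  obtain ⟨g₁', hg₁, e₁⟩ := exists_meas h₁
  obtain ⟨g₂', hg₂, e₂⟩ := exists_meas h₂
  rw [Fq_congr e₁ e₂, Fq_eq hg₁ hg₂ hs]
  simp_rw [cf_congr e₁, cf_congr e₂, uh_congr e₁ e₂]
  refine ⟨integrable_cf_prod hg₁ hg₂ hs t, ?_⟩
  unfold JR
  have h0 : ∀ᵐ a : ℝ, a ≠ 0 := by
    rw [ae_iff]; simp
  refine integral_congr_ae (h0.mono fun a ha => ?_)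
  simp only [ga_sq_eq]
  congr 1
  unfold II
  refine integral_congr_ae (Filter.Eventually.of_forall fun τ => ?_)
  simp only
  rw [norm_uh]
  have e1 : 2 * (t + τ / (2 * a)) * a = 2 * t * a + τ := by field_simp
  have e2 : Real.exp (-(Real.pi * τ ^ 2 / s ^ 2)) = ga (s ^ 2)⁻¹ τ := by
    unfold ga; congr 1; field_simp
  rw [e1, e2]

/-! ### the sharp time interval -/

/-- mass of the Gaussian on the admissible shifts -/
lemma shift_mass {s : ℝ} (hs : 0 < s) {α ℓ : ℝ} (hℓ : s ^ 2 ≤ ℓ) {a : ℝ} (ha : a ≠ 0) {t : ℝ}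
    (ht : t ∈ Set.Icc α (α + ℓ)) :
    ENNReal.ofReal (Real.exp (-Real.pi) * min 1 (s * |a|)) ≤
      ∫⁻ τ, ENNReal.ofReal (s⁻¹ * ga (s ^ 2)⁻¹ τ) *
        (Set.Icc α (α + ℓ)).indicator (fun _ => (1 : ℝ≥0∞)) (t - τ / (2 * a)) := by
  have ha' : 0 < |a| := abs_pos.mpr ha
  set m : ℝ := min s (s ^ 2 * |a|) with hm
  have hm0 : 0 < m := lt_min hs (by positivity)
  have hms : m ≤ s := min_le_left _ _
  have hma : m ≤ s ^ 2 * |a| := min_le_right _ _
  -- there is an interval of length `m` of admissible shifts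
  obtain ⟨u, v, huv, hI⟩ : ∃ u v : ℝ, v - u = m ∧ ∀ τ ∈ Set.Icc u v, |τ| ≤ s ∧
      t - τ / (2 * a) ∈ Set.Icc α (α + ℓ) := by
    have key : ∀ τ : ℝ, |τ| ≤ m → |τ / (2 * a)| ≤ s ^ 2 / 2 := by
      intro τ hτ
      rw [abs_div, abs_mul, abs_two, div_le_iff₀ (by positivity)]
      calc |τ| ≤ s ^ 2 * |a| := hτ.trans hma
        _ = s ^ 2 / 2 * (2 * |a|) := by ring
    rcases le_total t (α + ℓ / 2) with h | h
    · -- need `-τ/(2a) ≥ 0`
      rcases lt_or_gt_of_ne ha with hneg | hpos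
      · refine ⟨0, m, by ring, fun τ hτ => ?_⟩
        have h1 : |τ| ≤ m := by rw [abs_of_nonneg hτ.1]; exact hτ.2
        have h2 := abs_le.mp (key τ h1)
        have h3 : τ / (2 * a) ≤ 0 := div_nonpos_of_nonneg_of_nonpos hτ.1 (by linarith)
        exact ⟨h1.trans hms, by linarith [ht.1], by linarith⟩
      · refine ⟨-m, 0, by ring, fun τ hτ => ?_⟩
        have h1 : |τ| ≤ m := by rw [abs_of_nonpos hτ.2]; linarith [hτ.1]
        have h2 := abs_le.mp (key τ h1)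
        have h3 : τ / (2 * a) ≤ 0 := div_nonpos_of_nonpos_of_nonneg hτ.2 (by linarith)
        exact ⟨h1.trans hms, by linarith [ht.1], by linarith⟩
    · rcases lt_or_gt_of_ne ha with hneg | hpos
      · refine ⟨-m, 0, by ring, fun τ hτ => ?_⟩
        have h1 : |τ| ≤ m := by rw [abs_of_nonpos hτ.2]; linarith [hτ.1]
        have h2 := abs_le.mp (key τ h1)
        have h3 : 0 ≤ τ / (2 * a) := div_nonneg_of_nonpos hτ.2 (by linarith)
        exact ⟨h1.trans hms, by linarith, by linarith [ht.2]⟩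
      · refine ⟨0, m, by ring, fun τ hτ => ?_⟩
        have h1 : |τ| ≤ m := by rw [abs_of_nonneg hτ.1]; exact hτ.2
        have h2 := abs_le.mp (key τ h1)
        have h3 : 0 ≤ τ / (2 * a) := div_nonneg hτ.1 (by linarith)
        exact ⟨h1.trans hms, by linarith, by linarith [ht.2]⟩
  calc ENNReal.ofReal (Real.exp (-Real.pi) * min 1 (s * |a|))
      = ENNReal.ofReal (s⁻¹ * Real.exp (-Real.pi)) * volume (Set.Icc u v) := by
        rw [Real.volume_Icc, huv, ← ENNReal.ofReal_mul (by positivity)]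
        congr 1
        have : m = s * min 1 (s * |a|) := by
          rw [hm, mul_min_of_nonneg _ _ hs.le, mul_one]; ring_nf
        rw [this]
        field_simp
    _ = ∫⁻ τ in Set.Icc u v, ENNReal.ofReal (s⁻¹ * Real.exp (-Real.pi)) := by
        rw [setLIntegral_const]
    _ ≤ ∫⁻ τ in Set.Icc u v, ENNReal.ofReal (s⁻¹ * ga (s ^ 2)⁻¹ τ) *
        (Set.Icc α (α + ℓ)).indicator (fun _ => (1 : ℝ≥0∞)) (t - τ / (2 * a)) := by
        refine setLIntegral_mono' measurableSet_Icc fun τ hτ => ?_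
        obtain ⟨h1, h2⟩ := hI τ hτ
        rw [Set.indicator_of_mem h2, mul_one]
        refine ENNReal.ofReal_le_ofReal (mul_le_mul_of_nonneg_left ?_ (by positivity))
        unfold ga
        rw [Real.exp_le_exp, neg_le_neg_iff]
        have h3 : τ ^ 2 ≤ s ^ 2 := by rw [← sq_abs]; exact pow_le_pow_left₀ (abs_nonneg _) h1 2
        have h4 : (s ^ 2)⁻¹ * τ ^ 2 ≤ 1 := by
          rw [inv_mul_le_iff₀ (by positivity)]; linarith
        calc Real.pi * (s ^ 2)⁻¹ * τ ^ 2 = Real.pi * ((s ^ 2)⁻¹ * τ ^ 2) := by ring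
          _ ≤ Real.pi * 1 := mul_le_mul_of_nonneg_left h4 Real.pi_pos.le
          _ = Real.pi := mul_one _
    _ ≤ _ := setLIntegral_le_lintegral _ _

/-- averaging over a sharp interval of length at least `s²` -/
lemma interval_gain {s : ℝ} (hs : 0 < s) {α ℓ : ℝ} (hℓ : s ^ 2 ≤ ℓ) {a : ℝ} (ha : a ≠ 0)
    {h : ℝ → ℝ≥0∞} (hm : Measurable h) :
    ENNReal.ofReal (Real.exp (-Real.pi) * min 1 (s * |a|)) * ∫⁻ t in Set.Icc α (α + ℓ), h (2 * t * a) ≤
      ∫⁻ t in Set.Icc α (α + ℓ), ∫⁻ τ, ENNReal.ofReal (s⁻¹ * ga (s ^ 2)⁻¹ τ) * h (2 * t * a + τ) := by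
  have hG : Measurable (fun τ : ℝ => ENNReal.ofReal (s⁻¹ * ga (s ^ 2)⁻¹ τ)) :=
    ((measurable_ga _).const_mul _).ennreal_ofReal
  have hI : Measurable ((Set.Icc α (α + ℓ)).indicator (fun _ => (1 : ℝ≥0∞))) :=
    measurable_const.indicator measurableSet_Icc
  calc ENNReal.ofReal (Real.exp (-Real.pi) * min 1 (s * |a|)) * ∫⁻ t in Set.Icc α (α + ℓ), h (2 * t * a)
      = ∫⁻ t in Set.Icc α (α + ℓ), h (2 * t * a) * ENNReal.ofReal (Real.exp (-Real.pi) * min 1 (s * |a|)) := by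
        rw [lintegral_mul_const' _ _ ENNReal.ofReal_ne_top, mul_comm]
    _ ≤ ∫⁻ t in Set.Icc α (α + ℓ), h (2 * t * a) * ∫⁻ τ, ENNReal.ofReal (s⁻¹ * ga (s ^ 2)⁻¹ τ) *
        (Set.Icc α (α + ℓ)).indicator (fun _ => (1 : ℝ≥0∞)) (t - τ / (2 * a)) :=
        setLIntegral_mono' measurableSet_Icc fun t ht => mul_le_mul_right (shift_mass hs hℓ ha ht) _
    _ ≤ ∫⁻ t, h (2 * t * a) * ∫⁻ τ, ENNReal.ofReal (s⁻¹ * ga (s ^ 2)⁻¹ τ) *
        (Set.Icc α (α + ℓ)).indicator (fun _ => (1 : ℝ≥0∞)) (t - τ / (2 * a)) := setLIntegral_le_lintegral _ _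
    _ = ∫⁻ t, ∫⁻ τ, ENNReal.ofReal (s⁻¹ * ga (s ^ 2)⁻¹ τ) *
        ((Set.Icc α (α + ℓ)).indicator (fun _ => (1 : ℝ≥0∞)) (t - τ / (2 * a)) * h (2 * t * a)) := by
        refine lintegral_congr fun t => ?_
        have h1 : Measurable (fun τ : ℝ => ENNReal.ofReal (s⁻¹ * ga (s ^ 2)⁻¹ τ) *
          (Set.Icc α (α + ℓ)).indicator (fun _ => (1 : ℝ≥0∞)) (t - τ / (2 * a))) :=
          hG.mul (hI.comp (by fun_prop))
        rw [← lintegral_const_mul _ h1]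
        refine lintegral_congr fun τ => ?_
        ring
    _ = ∫⁻ τ, ∫⁻ t, ENNReal.ofReal (s⁻¹ * ga (s ^ 2)⁻¹ τ) *
        ((Set.Icc α (α + ℓ)).indicator (fun _ => (1 : ℝ≥0∞)) (t - τ / (2 * a)) * h (2 * t * a)) := by
        refine lintegral_lintegral_swap ?_
        refine ((hG.comp measurable_snd).mul ((hI.comp ?_).mul (hm.comp ?_))).aemeasurable
        · exact (by fun_prop : Measurable fun p : ℝ × ℝ => p.1 - p.2 / (2 * a))
        · exact (by fun_prop : Measurable fun p : ℝ × ℝ => 2 * p.1 * a)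
    _ = ∫⁻ τ, ∫⁻ t, ENNReal.ofReal (s⁻¹ * ga (s ^ 2)⁻¹ τ) *
        ((Set.Icc α (α + ℓ)).indicator (fun _ => (1 : ℝ≥0∞)) t * h (2 * t * a + τ)) := by
        refine lintegral_congr fun τ => ?_
        rw [← lintegral_sub_right_eq_self (fun t => ENNReal.ofReal (s⁻¹ * ga (s ^ 2)⁻¹ τ) *
          ((Set.Icc α (α + ℓ)).indicator (fun _ => (1 : ℝ≥0∞)) t * h (2 * t * a + τ))) (τ / (2 * a))]
        refine lintegral_congr fun t => ?_
        have : 2 * (t - τ / (2 * a)) * a + τ = 2 * t * a := by field_simp; ring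
        rw [this]
    _ = ∫⁻ t, ∫⁻ τ, ENNReal.ofReal (s⁻¹ * ga (s ^ 2)⁻¹ τ) *
        ((Set.Icc α (α + ℓ)).indicator (fun _ => (1 : ℝ≥0∞)) t * h (2 * t * a + τ)) := by
        refine lintegral_lintegral_swap ?_
        refine ((hG.comp measurable_fst).mul ((hI.comp measurable_snd).mul (hm.comp ?_))).aemeasurable
        exact (by fun_prop : Measurable fun p : ℝ × ℝ => 2 * p.2 * a + p.1)
    _ = ∫⁻ t, (Set.Icc α (α + ℓ)).indicator (fun t => ∫⁻ τ, ENNReal.ofReal (s⁻¹ * ga (s ^ 2)⁻¹ τ) *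
        h (2 * t * a + τ)) t := by
        refine lintegral_congr fun t => ?_
        by_cases ht : t ∈ Set.Icc α (α + ℓ)
        · simp only [Set.indicator_of_mem ht, one_mul]
        · simp only [Set.indicator_of_notMem ht, zero_mul, mul_zero, lintegral_zero]
    _ = _ := lintegral_indicator measurableSet_Icc _

lemma integrable_left {F : ℝ → ℝ → ℝ} (hF : Measurable (Function.uncurry F)) (h0 : ∀ t a, 0 ≤ F t a)
    {k : ℝ → ℝ} (hk : Integrable k) (hb : ∀ t a, F t a ≤ k a) (t : ℝ) : Integrable (F t) := by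
  refine hk.mono' (hF.comp (by fun_prop : Measurable fun a : ℝ => (t, a))).aestronglyMeasurable
    (Filter.Eventually.of_forall fun a => ?_)
  rw [Real.norm_of_nonneg (h0 t a)]
  exact hb t a

lemma integrableOn_int {F : ℝ → ℝ → ℝ} (hF : Measurable (Function.uncurry F)) (h0 : ∀ t a, 0 ≤ F t a)
    {k : ℝ → ℝ} (hk : Integrable k) (hb : ∀ t a, F t a ≤ k a) (J : Set ℝ) (hJ : volume J ≠ ⊤) :
    IntegrableOn (fun t => ∫ a, F t a) J := by
  have hm : StronglyMeasurable (fun t => ∫ a, F t a) := hF.stronglyMeasurable.integral_prod_right'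
  refine Measure.integrableOn_of_bounded (M := ∫ a, k a) hJ hm.aestronglyMeasurable ?_
  refine Filter.Eventually.of_forall fun t => ?_
  rw [Real.norm_of_nonneg (integral_nonneg (h0 t))]
  exact integral_mono (integrable_left hF h0 hk hb t) hk (hb t)

lemma ofReal_iint {F : ℝ → ℝ → ℝ} (hF : Measurable (Function.uncurry F)) (h0 : ∀ t a, 0 ≤ F t a)
    {k : ℝ → ℝ} (hk : Integrable k) (hb : ∀ t a, F t a ≤ k a) (J : Set ℝ) (hJ : volume J ≠ ⊤) :
    ENNReal.ofReal (∫ t in J, ∫ a, F t a) = ∫⁻ t in J, ∫⁻ a, ENNReal.ofReal (F t a) := by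
  rw [ofReal_integral_eq_lintegral_ofReal (integrableOn_int hF h0 hk hb J hJ)
    (Filter.Eventually.of_forall fun t => integral_nonneg (h0 t))]
  refine lintegral_congr fun t => ?_
  rw [ofReal_integral_eq_lintegral_ofReal (integrable_left hF h0 hk hb t)
    (Filter.Eventually.of_forall (h0 t))]

/-- the gain inequality with a general weight -/
lemma gain_le {g₁ g₂ : ℝ → ℂ} (h₁ : Gm g₁) (h₂ : Gm g₂) {s : ℝ} (hs : 0 < s) {α ℓ : ℝ} (hℓ : s ^ 2 ≤ ℓ)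
    {m k : ℝ → ℝ} (hmm : Measurable m) (hm0 : ∀ a, 0 ≤ m a) (hk : Integrable k) (hmk : ∀ a, m a ≤ k a) :
    Real.exp (-Real.pi) * (∫ t in Set.Icc α (α + ℓ), ∫ a, m a * min 1 (s * |a|) * ‖X.uh g₁ g₂ a t‖ ^ 2) ≤
      ∫ t in Set.Icc α (α + ℓ), ∫ a, m a * II g₁ g₂ s t a := by
  have hJ : volume (Set.Icc α (α + ℓ)) ≠ ⊤ := by rw [Real.volume_Icc]; exact ENNReal.ofReal_ne_top
  have hmin0 : ∀ a : ℝ, 0 ≤ min 1 (s * |a|) := fun a => le_min zero_le_one (by positivity)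
  have hmin1 : ∀ a : ℝ, min 1 (s * |a|) ≤ 1 := fun a => min_le_left _ _
  have hminm : Measurable (fun a : ℝ => min 1 (s * |a|)) := by fun_prop
  have hV := measurable_Vh h₁.meas h₂.meas
  have hkB : Integrable (fun a => k a * bd g₁ g₂ ^ 2) := hk.mul_const _
  -- first functional
  have hF1 : Measurable (Function.uncurry fun t a : ℝ => m a * min 1 (s * |a|) * ‖X.uh g₁ g₂ a t‖ ^ 2) := by
    have : (Function.uncurry fun t a : ℝ => m a * min 1 (s * |a|) * ‖X.uh g₁ g₂ a t‖ ^ 2) =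
        fun p : ℝ × ℝ => m p.2 * min 1 (s * |p.2|) * ‖Vh g₁ g₂ p.2 (2 * p.1 * p.2)‖ ^ 2 := by
      funext p
      simp only [Function.uncurry, norm_uh]
    rw [this]
    exact ((hmm.comp measurable_snd).mul (hminm.comp measurable_snd)).mul
      ((hV.comp (by fun_prop : Measurable fun p : ℝ × ℝ => (p.2, 2 * p.1 * p.2))).norm.pow_const 2)
  have hF10 : ∀ t a : ℝ, 0 ≤ m a * min 1 (s * |a|) * ‖X.uh g₁ g₂ a t‖ ^ 2 := fun t a =>
    mul_nonneg (mul_nonneg (hm0 a) (hmin0 a)) (by positivity)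
  have hF1b : ∀ t a : ℝ, m a * min 1 (s * |a|) * ‖X.uh g₁ g₂ a t‖ ^ 2 ≤ k a * bd g₁ g₂ ^ 2 := by
    intro t a
    rw [norm_uh]
    refine mul_le_mul ?_ (sq_Vh_le h₁ h₂ _ _) (by positivity) ((hm0 a).trans (hmk a))
    calc m a * min 1 (s * |a|) ≤ m a * 1 := mul_le_mul_of_nonneg_left (hmin1 a) (hm0 a)
      _ ≤ k a := by rw [mul_one]; exact hmk a
  -- second functional
  have hF2 : Measurable (Function.uncurry fun t a : ℝ => m a * II g₁ g₂ s t a) :=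
    (hmm.comp measurable_snd).mul (measurable_II h₁ h₂ s)
  have hF20 : ∀ t a : ℝ, 0 ≤ m a * II g₁ g₂ s t a := fun t a => mul_nonneg (hm0 a) (II_nonneg _ _ hs _ _)
  have hF2b : ∀ t a : ℝ, m a * II g₁ g₂ s t a ≤ k a * bd g₁ g₂ ^ 2 := fun t a =>
    mul_le_mul (hmk a) (II_le h₁ h₂ hs t a) (II_nonneg _ _ hs _ _) ((hm0 a).trans (hmk a))
  have hR0 : 0 ≤ ∫ t in Set.Icc α (α + ℓ), ∫ a, m a * II g₁ g₂ s t a :=
    integral_nonneg fun t => integral_nonneg (hF20 t)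
  rw [← ENNReal.ofReal_le_ofReal_iff hR0, ENNReal.ofReal_mul (Real.exp_pos _).le,
    ofReal_iint hF1 hF10 hkB hF1b _ hJ, ofReal_iint hF2 hF20 hkB hF2b _ hJ]
  have hf1m : AEMeasurable (Function.uncurry fun t a : ℝ => ENNReal.ofReal (m a * min 1 (s * |a|) *
      ‖X.uh g₁ g₂ a t‖ ^ 2)) ((volume.restrict (Set.Icc α (α + ℓ))).prod volume) :=
    hF1.ennreal_ofReal.aemeasurable
  have hf2m : AEMeasurable (Function.uncurry fun t a : ℝ => ENNReal.ofReal (m a * II g₁ g₂ s t a))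
      ((volume.restrict (Set.Icc α (α + ℓ))).prod volume) := hF2.ennreal_ofReal.aemeasurable
  rw [lintegral_lintegral_swap hf1m, lintegral_lintegral_swap hf2m,
    ← lintegral_const_mul' _ _ ENNReal.ofReal_ne_top]
  have h0 : ∀ᵐ a : ℝ, a ≠ 0 := by
    rw [ae_iff]; simp
  refine lintegral_mono_ae (h0.mono fun a ha => ?_)
  have hVa : Measurable (fun w : ℝ => ‖Vh g₁ g₂ a w‖ₑ ^ 2) :=
    ((hV.comp (by fun_prop : Measurable fun w : ℝ => (a, w))).enorm.pow_const 2)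
  have key := interval_gain hs hℓ ha hVa (α := α)
  have e1 : ∀ t : ℝ, ENNReal.ofReal (m a * min 1 (s * |a|) * ‖X.uh g₁ g₂ a t‖ ^ 2) =
      ENNReal.ofReal (m a * min 1 (s * |a|)) * ‖Vh g₁ g₂ a (2 * t * a)‖ₑ ^ 2 := by
    intro t
    rw [norm_uh, ENNReal.ofReal_mul (mul_nonneg (hm0 a) (hmin0 a)), ENNReal.ofReal_pow (norm_nonneg _),
      ofReal_norm]
  have e2 : ∀ t : ℝ, ENNReal.ofReal (m a * II g₁ g₂ s t a) = ENNReal.ofReal (m a) *
      ∫⁻ τ, ENNReal.ofReal (s⁻¹ * ga (s ^ 2)⁻¹ τ) * ‖Vh g₁ g₂ a (2 * t * a + τ)‖ₑ ^ 2 := by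
    intro t
    rw [ENNReal.ofReal_mul (hm0 a), ofReal_II h₁ h₂ hs]
  simp_rw [e1, e2]
  rw [lintegral_const_mul' _ _ ENNReal.ofReal_ne_top, lintegral_const_mul' _ _ ENNReal.ofReal_ne_top]
  calc ENNReal.ofReal (Real.exp (-Real.pi)) * (ENNReal.ofReal (m a * min 1 (s * |a|)) *
        ∫⁻ t in Set.Icc α (α + ℓ), ‖Vh g₁ g₂ a (2 * t * a)‖ₑ ^ 2)
      = ENNReal.ofReal (m a) * (ENNReal.ofReal (Real.exp (-Real.pi) * min 1 (s * |a|)) *
        ∫⁻ t in Set.Icc α (α + ℓ), ‖Vh g₁ g₂ a (2 * t * a)‖ₑ ^ 2) := by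
        rw [ENNReal.ofReal_mul (hm0 a), ENNReal.ofReal_mul (Real.exp_pos _).le]
        ring
    _ ≤ _ := mul_le_mul_right key _

theorem stBHL : X.StBHL := by
  refine ⟨Real.exp Real.pi, Real.exp_pos _, fun s hs α ℓ hℓ g₁ g₂ h₁ h₂ => ?_⟩
  obtain ⟨g₁', hg₁, e₁⟩ := exists_meas h₁
  obtain ⟨g₂', hg₂, e₂⟩ := exists_meas h₂
  simp_rw [Fq_congr e₁ e₂, uh_congr e₁ e₂]
  have hℓ0 : 0 ≤ ℓ := (sq_nonneg s).trans hℓ
  have hle : α ≤ α + ℓ := by linarith
  rw [intervalIntegral.integral_of_le hle, intervalIntegral.integral_of_le hle,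
    ← integral_Icc_eq_integral_Ioc, ← integral_Icc_eq_integral_Ioc]
  have key := gain_le hg₁ hg₂ hs hℓ (measurable_ga (s ^ 2)) (ga_nonneg _)
    (integrable_ga (by positivity : 0 < s ^ 2)) (fun a => le_rfl) (α := α)
  have e3 : ∀ t, X.Fq s t g₁' g₂' = ∫ a, ga (s ^ 2) a * II g₁' g₂' s t a := fun t => Fq_eq hg₁ hg₂ hs t
  simp_rw [e3, ga_sq_eq]
  have h4 : Real.exp Real.pi * Real.exp (-Real.pi) = 1 := by rw [← Real.exp_add]; simp
  calc _ = Real.exp Real.pi * (Real.exp (-Real.pi) * ∫ t in Set.Icc α (α + ℓ), ∫ a,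
        ga (s ^ 2) a * min 1 (s * |a|) * ‖X.uh g₁' g₂' a t‖ ^ 2) := by
        rw [← mul_assoc, h4, one_mul]
    _ ≤ _ := mul_le_mul_of_nonneg_left key (Real.exp_pos _).le

lemma integrableOn_JR {g₁ g₂ : ℝ → ℂ} (h₁ : Gm g₁) (h₂ : Gm g₂) {p q : ℝ} (hp : 0 < p) (hq : 0 < q)
    (J : Set ℝ) (hJ : volume J ≠ ⊤) : IntegrableOn (fun t => JR g₁ g₂ p q t) J := by
  have hF : Measurable (Function.uncurry fun t a : ℝ => ga (p ^ 2) a * II g₁ g₂ q t a) :=
    ((measurable_ga (p ^ 2)).comp measurable_snd).mul (measurable_II h₁ h₂ q)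
  refine integrableOn_int (F := fun t a => ga (p ^ 2) a * II g₁ g₂ q t a) hF
    (fun t a => mul_nonneg (ga_nonneg _ _) (II_nonneg _ _ hq _ _))
    ((integrable_ga (by positivity : 0 < p ^ 2)).mul_const (bd g₁ g₂ ^ 2)) (fun t a => ?_) J hJ
  exact mul_le_mul_of_nonneg_left (II_le h₁ h₂ hq t a) (ga_nonneg _ _)

/-- pointwise in time lower bound of the telescoping difference -/
lemma diff_ge {g : ℝ → ℂ} (h : Gm g) {s : ℝ} (hs : 0 < s) (t : ℝ) :
    ∫ a, (ga ((s / 2) ^ 2) a - ga (s ^ 2) a) * II g g s t a ≤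
      JR g g (s / 2) (s / 2) t - JR g g s s t := by
  have hs2 : 0 < s / 2 := by positivity
  have e : JR g g (s / 2) (s / 2) t - JR g g s s t =
      (JR g g (s / 2) (s / 2) t - JR g g s (s / 2) t) + (JR g g (s / 2) s t - JR g g s s t) := by
    rw [JR_symm h hs hs2 t]; ring
  rw [e]
  have i1 : ∀ {p q : ℝ}, 0 < p → 0 < q → Integrable (fun a => ga (p ^ 2) a * II g g q t a) :=
    fun {p q} hp hq => integrable_JR h h hq t (integrable_ga (by positivity))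
  have e1 : JR g g (s / 2) s t - JR g g s s t =
      ∫ a, (ga ((s / 2) ^ 2) a - ga (s ^ 2) a) * II g g s t a := by
    unfold JR
    rw [← integral_sub (i1 hs2 hs) (i1 hs hs)]
    refine integral_congr_ae (Filter.Eventually.of_forall fun a => ?_)
    simp only
    ring
  have e2 : 0 ≤ JR g g (s / 2) (s / 2) t - JR g g s (s / 2) t := by
    rw [sub_nonneg]
    refine integral_mono (i1 hs hs2) (i1 hs2 hs2) fun a => ?_
    refine mul_le_mul_of_nonneg_right ?_ (II_nonneg _ _ hs2 _ _)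
    unfold ga
    rw [Real.exp_le_exp, neg_le_neg_iff]
    refine mul_le_mul_of_nonneg_right ?_ (sq_nonneg _)
    refine mul_le_mul_of_nonneg_left ?_ Real.pi_pos.le
    nlinarith
  linarith

/-- **monotonicity** of the quartic functional, pointwise in time -/
theorem Fq_mono {g : ℝ → ℂ} (h : X.Good g) {s : ℝ} (hs : 0 < s) (t : ℝ) :
    X.Fq s t g g ≤ X.Fq (s / 2) t g g := by
  obtain ⟨g', hg, e⟩ := exists_meas h
  rw [Fq_congr e e, Fq_congr e e, Fq_eq hg hg hs, Fq_eq hg hg (by positivity : 0 < s / 2), ← sub_nonneg]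
  refine le_trans (integral_nonneg fun a => mul_nonneg ?_ (II_nonneg _ _ hs _ _)) (diff_ge hg hs t)
  rw [sub_nonneg]
  unfold ga
  rw [Real.exp_le_exp, neg_le_neg_iff]
  refine mul_le_mul_of_nonneg_right ?_ (sq_nonneg _)
  refine mul_le_mul_of_nonneg_left ?_ Real.pi_pos.le
  nlinarith

theorem stTelA : X.StTelA := by
  refine ⟨Real.exp (-Real.pi), Real.exp_pos _, fun s hs α ℓ hℓ g h => ?_⟩
  obtain ⟨g', hg, e⟩ := exists_meas h
  simp_rw [Fq_congr e e, uh_congr e e]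
  have hℓ0 : 0 ≤ ℓ := (sq_nonneg s).trans hℓ
  have hle : α ≤ α + ℓ := by linarith
  have hs2 : 0 < s / 2 := by positivity
  have hJ : volume (Set.Icc α (α + ℓ)) ≠ ⊤ := by rw [Real.volume_Icc]; exact ENNReal.ofReal_ne_top
  rw [intervalIntegral.integral_of_le hle, intervalIntegral.integral_of_le hle,
    ← integral_Icc_eq_integral_Ioc, ← integral_Icc_eq_integral_Ioc]
  have hd0 : ∀ a, 0 ≤ ga ((s / 2) ^ 2) a - ga (s ^ 2) a := by
    intro a
    rw [sub_nonneg]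
    unfold ga
    rw [Real.exp_le_exp, neg_le_neg_iff]
    refine mul_le_mul_of_nonneg_right ?_ (sq_nonneg _)
    refine mul_le_mul_of_nonneg_left ?_ Real.pi_pos.le
    nlinarith
  have hdk : ∀ a, ga ((s / 2) ^ 2) a - ga (s ^ 2) a ≤ ga ((s / 2) ^ 2) a := fun a => by
    have := ga_nonneg (s ^ 2) a
    linarith
  have hki : Integrable (ga ((s / 2) ^ 2)) := integrable_ga (by positivity)
  have key := gain_le hg hg hs hℓ ((measurable_ga ((s / 2) ^ 2)).sub (measurable_ga (s ^ 2))) hd0 hki hdk (α := α)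
  have e3 : ∀ t, X.Fq (s / 2) t g' g' - X.Fq s t g' g' = JR g' g' (s / 2) (s / 2) t - JR g' g' s s t := fun t => by
    rw [Fq_eq hg hg hs, Fq_eq hg hg hs2]
  have e4 : ∀ a : ℝ, Real.exp (-(Real.pi * s ^ 2 * a ^ 2 / 4)) - Real.exp (-(Real.pi * s ^ 2 * a ^ 2)) =
      ga ((s / 2) ^ 2) a - ga (s ^ 2) a := by
    intro a
    unfold ga
    congr 2
    ring
  simp_rw [e3, e4]
  refine key.trans ?_
  refine setIntegral_mono_on ?_ ?_ measurableSet_Icc fun t _ => diff_ge hg hs t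
  · have hF : Measurable (Function.uncurry fun t a : ℝ => (ga ((s / 2) ^ 2) a - ga (s ^ 2) a) * II g' g' s t a) :=
      (((measurable_ga ((s / 2) ^ 2)).comp measurable_snd).sub ((measurable_ga (s ^ 2)).comp measurable_snd)).mul
        (measurable_II hg hg s)
    refine integrableOn_int (F := fun t a => (ga ((s / 2) ^ 2) a - ga (s ^ 2) a) * II g' g' s t a) hF
      (fun t a => mul_nonneg (hd0 a) (II_nonneg _ _ hs _ _))
      (hki.mul_const (bd g' g' ^ 2)) (fun t a => ?_) _ hJ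
    exact mul_le_mul (hdk a) (II_le hg hg hs t a) (II_nonneg _ _ hs _ _) (ga_nonneg _ _)
  · exact (integrableOn_JR hg hg hs2 hs2 _ hJ).sub (integrableOn_JR hg hg hs hs _ hJ)

/-- the quartic functional is bounded and integrable in time on bounded sets -/
theorem integrableOn_Fq {g₁ g₂ : ℝ → ℂ} (h₁ : X.Good g₁) (h₂ : X.Good g₂) {s : ℝ} (hs : 0 < s)
    (J : Set ℝ) (hJ : volume J ≠ ⊤) : IntegrableOn (fun t => X.Fq s t g₁ g₂) J := by
  obtain ⟨g₁', hg₁, e₁⟩ := exists_meas h₁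
  obtain ⟨g₂', hg₂, e₂⟩ := exists_meas h₂
  simp_rw [Fq_congr e₁ e₂, Fq_eq hg₁ hg₂ hs]
  exact integrableOn_JR hg₁ hg₂ hs hs J hJ

theorem Fq_nonneg (g₁ g₂ : ℝ → ℂ) {s : ℝ} (hs : 0 < s) (t : ℝ) : 0 ≤ X.Fq s t g₁ g₂ := by
  unfold X.Fq
  exact mul_nonneg (by positivity) (integral_nonneg fun p => by positivity)

end Vale.Agent.P076.H416
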